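import Mathlib

/-!
Cubic threshold for the Foulkes-Howe map: the algebraic core.

`R` is a commutative complex algebra, `ell i : W → R` linear maps (one for each block),
`z l = ∏ i, ell i l`.  We show that symmetrised multihomogeneous products of degree `b`
lie in `(span z) ^ b` once `a * (a-1)^2 ≤ b`.
-/

namespace Vale.Agent.P181

open Finset Polynomial

variable {R : Type*} [CommRing R] [Algebra ℂ R] {W : Type*} [AddCommGroup W] [Module ℂ W]

theorem coeff_mem_of_forall_eval_mem (S : Submodule ℂ R) (P : R[X])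
    (h : ∀ x : ℂ, P.eval (algebraMap ℂ R x) ∈ S) (k : ℕ) : P.coeff k ∈ S := by
  rw [← Submodule.Quotient.mk_eq_zero, ← Module.forall_dual_apply_eq_zero_iff ℂ]
  intro φ
  let ψ : R →ₗ[ℂ] ℂ := φ.comp S.mkQ
  let p : ℂ[X] := ∑ j ∈ P.support, Polynomial.monomial j (ψ (P.coeff j))
  have hp : p = 0 := by
    apply Polynomial.funext
    intro x
    have hx : ψ (P.eval (algebraMap ℂ R x)) = 0 := by
      simp only [ψ, LinearMap.comp_apply, Submodule.mkQ_apply]
      rw [(Submodule.Quotient.mk_eq_zero S).mpr (h x), map_zero]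
    rw [Polynomial.eval_zero, ← hx, Polynomial.eval_eq_sum (p := P), Polynomial.sum_def, map_sum]
    simp only [p, Polynomial.eval_finsetSum, Polynomial.eval_monomial]
    refine Finset.sum_congr rfl fun j _ => ?_
    rw [← map_pow, mul_comm (P.coeff j), ← Algebra.smul_def, LinearMap.map_smul, smul_eq_mul]
    exact mul_comm _ _
  have h2 : ψ (P.coeff k) = 0 := by
    have h3 := congrArg (fun q => Polynomial.coeff q k) hp
    simp only [p, Polynomial.finsetSum_coeff, Polynomial.coeff_monomial,
      Finset.sum_ite_eq', Polynomial.coeff_zero] at h3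
    by_cases hk : k ∈ P.support
    · simpa [hk] using h3
    · rw [Polynomial.notMem_support_iff.mp hk, map_zero]
  exact h2

/-- Range of a linear map, raised to the `k`th power, is spanned by `k`th powers. -/
theorem range_pow_le (f : W →ₗ[ℂ] R) (k : ℕ) :
    LinearMap.range f ^ k ≤ Submodule.span ℂ (Set.range fun c => f c ^ k) := by
  induction k with
  | zero =>
    rw [pow_zero, Submodule.one_eq_span]
    apply Submodule.span_mono
    intro x hx
    exact ⟨0, by simpa using hx.symm⟩
  | succ k ih =>
    rw [pow_succ]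
    refine le_trans (mul_le_mul' ih le_rfl) ?_
    rw [← Submodule.span_eq (LinearMap.range f), Submodule.span_mul_span, Submodule.span_le]
    rintro _ ⟨_, ⟨c, rfl⟩, _, ⟨w, rfl⟩, rfl⟩
    set S := Submodule.span ℂ (Set.range fun c => f c ^ (k + 1))
    have h : ((Polynomial.X * Polynomial.C (f w) + Polynomial.C (f c)) ^ (k + 1)).coeff 1 ∈ S := by
      apply coeff_mem_of_forall_eval_mem
      intro x
      apply Submodule.subset_span
      refine ⟨x • w + c, ?_⟩
      simp only [map_add, map_smul, Algebra.smul_def, Polynomial.eval_pow, Polynomial.eval_add,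
        Polynomial.eval_mul, Polynomial.eval_X, Polynomial.eval_C]
    have h' : ((k + 1 : ℕ) : ℂ) • (f c ^ k * f w) ∈ S := by
      convert h using 1
      rw [add_pow, Polynomial.finsetSum_coeff]
      rw [Finset.sum_eq_single 1]
      · have : ((k + 1).choose 1) = k + 1 := Nat.choose_one_right _
        rw [this, pow_one, Nat.add_sub_cancel, ← Polynomial.C_pow, ← Polynomial.C_eq_natCast,
          mul_assoc, mul_assoc, ← Polynomial.C_mul, ← Polynomial.C_mul,
          Polynomial.coeff_X_mul (n := 0), Polynomial.coeff_C_zero, Algebra.smul_def, map_natCast]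
        ring
      · intro j _ hj
        rw [mul_pow, ← Polynomial.C_pow, ← Polynomial.C_pow, ← Polynomial.C_eq_natCast]
        rw [mul_assoc, mul_assoc, ← Polynomial.C_mul, ← Polynomial.C_mul,
          Polynomial.coeff_X_pow_mul']
        rcases j with _ | j
        · simp [← map_pow, Polynomial.coeff_C]
        · have : ¬ j + 1 ≤ 1 := by omega
          simp [this]
      · simp
    have h'' := S.smul_mem ((k + 1 : ℕ) : ℂ)⁻¹ h'
    rwa [smul_smul, inv_mul_cancel₀ (by exact_mod_cast Nat.succ_ne_zero k), one_smul] at h''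

/-- The span of `N`th powers of `∏ i ∈ s, ell i l`. -/
def zSpan {ι : Type*} (ell : ι → W →ₗ[ℂ] R) (s : Finset ι) (N : ℕ) : Submodule ℂ R :=
  Submodule.span ℂ (Set.range fun l : W => (∏ i ∈ s, ell i l) ^ N)

/-- The key lemma: multidegree `q ≥ |s| N` products lie in the ideal of `N`th powers. -/
theorem key_lemma {ι : Type*} [DecidableEq ι] (ell : ι → W →ₗ[ℂ] R) (N : ℕ) :
    ∀ (s : Finset ι) (q : ℕ), s.card * N ≤ q →
      (∏ i ∈ s, LinearMap.range (ell i)) ^ q ≤
        zSpan ell s N * (∏ i ∈ s, LinearMap.range (ell i)) ^ (q - N) := by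
  intro s
  induction s using Finset.induction_on with
  | empty =>
    intro q _
    simp only [Finset.prod_empty, one_pow, mul_one]
    rw [Submodule.one_eq_span]
    apply Submodule.span_mono
    intro x hx
    exact ⟨0, by simpa using hx.symm⟩
  | @insert u s hu ih =>
    intro q hq
    rw [Finset.card_insert_of_notMem hu, add_mul, one_mul] at hq
    rw [Finset.prod_insert hu, mul_pow, mul_pow]
    refine le_trans (mul_le_mul' le_rfl (ih q (by omega))) ?_
    rw [← mul_assoc, ← mul_assoc]
    refine mul_le_mul' ?_ le_rfl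
    refine le_trans (mul_le_mul' (range_pow_le (ell u) q) le_rfl) ?_
    rw [zSpan, Submodule.span_mul_span, Submodule.span_le]
    rintro _ ⟨_, ⟨w, rfl⟩, _, ⟨l, rfl⟩, rfl⟩
    set U := LinearMap.range (ell u)
    set Tgt := zSpan ell (insert u s) N * U ^ (q - N) with hTgt
    set L := ell u l with hL
    set Y := ell u w with hY
    set Zp : R[X] :=
      (∏ i ∈ s, (Polynomial.X * Polynomial.C (ell i w) + Polynomial.C (ell i l))) ^ N with hZp
    have hdeg : Zp.natDegree ≤ s.card * N := by
      rw [hZp]
      refine (Polynomial.natDegree_pow_le).trans ?_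
      rw [mul_comm s.card]
      refine Nat.mul_le_mul_left _ ((Polynomial.natDegree_prod_le _ _).trans ?_)
      refine (Finset.sum_le_card_nsmul s _ 1 fun i _ => ?_).trans (by simp)
      exact (Polynomial.natDegree_add_le _ _).trans (by simp [(Polynomial.natDegree_mul_le).trans, Polynomial.natDegree_X_le])
    let T : ℕ → R := fun k => Zp.coeff k * (L ^ k * Y ^ (q - k))
    have hrel : ∀ i, i ≤ s.card * N →
        ∑ j ∈ range (N + 1), (N.choose j : ℂ) • T (i + N - j) ∈ Tgt := by
      intro i hi
      have h := coeff_mem_of_forall_eval_mem Tgt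
        (Zp * (Polynomial.X * Polynomial.C Y + Polynomial.C L) ^ N *
          Polynomial.C (L ^ i * Y ^ (q - N - i))) ?_ (i + N)
      · convert h using 1
        rw [Polynomial.coeff_mul_C, add_pow, Finset.mul_sum, Polynomial.finsetSum_coeff,
          Finset.sum_mul]
        refine Finset.sum_congr rfl fun j hj => ?_
        have hj' : j ≤ N := Nat.lt_succ_iff.mp (Finset.mem_range.mp hj)
        have e : Zp * ((Polynomial.X * Polynomial.C Y) ^ j * Polynomial.C L ^ (N - j) *
            (N.choose j : R[X])) =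
            (Zp * Polynomial.C (Y ^ j * L ^ (N - j) * (N.choose j : R))) * Polynomial.X ^ j := by
          simp only [Polynomial.C_mul, Polynomial.C_pow, map_natCast, mul_pow]; ring
        rw [e, Polynomial.coeff_mul_X_pow', if_pos (by omega), Polynomial.coeff_mul_C]
        simp only [T, Algebra.smul_def, map_natCast]
        have e1 : i + N - j = (N - j) + i := by omega
        have e2 : q - (i + N - j) = j + (q - N - i) := by omega
        rw [e2, pow_add Y, e1, pow_add L]
        ring
      · intro x
        have hz : (∏ i ∈ insert u s, ell i (x • w + l)) ^ N ∈ zSpan ell (insert u s) N :=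
          Submodule.subset_span ⟨_, rfl⟩
        have hc : L ^ i * Y ^ (q - N - i) ∈ U ^ (q - N) := by
          rw [show q - N = i + (q - N - i) by omega, pow_add]
          rw [show i + (q - N - i) - i = q - N - i by omega]
          exact Submodule.mul_mem_mul (Submodule.pow_mem_pow _ (LinearMap.mem_range_self _ l) _)
            (Submodule.pow_mem_pow _ (LinearMap.mem_range_self _ w) _)
        convert Submodule.mul_mem_mul hz hc using 1
        rw [Finset.prod_insert hu]
        simp [hZp, Polynomial.eval_prod, Algebra.smul_def, mul_pow, hL, hY]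
        ring
    have hall : ∀ k, T k ∈ Tgt := by
      have : ∀ m k, s.card * N < k + m → T k ∈ Tgt := by
        intro m
        induction m with
        | zero =>
          intro k hk
          have : Zp.coeff k = 0 := Polynomial.coeff_eq_zero_of_natDegree_lt (by omega)
          simp [T, this]
        | succ m ihm =>
          intro k hk
          by_cases hk' : s.card * N < k
          · have : Zp.coeff k = 0 := Polynomial.coeff_eq_zero_of_natDegree_lt (by omega)
            simp [T, this]
          · have h := hrel k (by omega)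
            rw [Finset.sum_range_succ] at h
            have hrest : ∑ j ∈ range N, (N.choose j : ℂ) • T (k + N - j) ∈ Tgt := by
              refine Submodule.sum_mem _ fun j hj => Submodule.smul_mem _ _ (ihm _ ?_)
              have := Finset.mem_range.mp hj
              omega
            simpa using (Submodule.add_mem_iff_right _ hrest).mp h
      exact fun k => this (s.card * N + 1) k (by omega)
    have h0 := hall 0
    rw [show T 0 = (∏ i ∈ s, ell i l) ^ N * Y ^ q by
      simp [T, hZp, Polynomial.coeff_zero_eq_eval_zero, Polynomial.eval_prod]] at h0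
    show Y ^ q * (∏ i ∈ s, ell i l) ^ N ∈ Tgt
    rwa [mul_comm]

section Blocks

variable {a : ℕ}

/-- The linear maps `ell (σ i)`, simultaneously for all permutations `σ`. -/
def permMap (ell : Fin a → W →ₗ[ℂ] R) (i : Fin a) : W →ₗ[ℂ] (Equiv.Perm (Fin a) → R) :=
  LinearMap.pi fun σ => ell (σ i)

/-- Summation over all permutations. -/
def sumMap (a : ℕ) : (Equiv.Perm (Fin a) → R) →ₗ[ℂ] R :=
  ∑ σ : Equiv.Perm (Fin a), LinearMap.proj σ

theorem sumMap_apply (f : Equiv.Perm (Fin a) → R) : sumMap a f = ∑ σ, f σ := by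
  simp [sumMap]

/-- Symmetrised products of multidegree `(d, …, d)`. -/
def symSub (ell : Fin a → W →ₗ[ℂ] R) (d : ℕ) : Submodule ℂ R :=
  Submodule.map (sumMap a) ((∏ i, LinearMap.range (permMap ell i)) ^ d)

/-- Degree one invariants: the span of `∏ i, ell i l`. -/
abbrev zB (ell : Fin a → W →ₗ[ℂ] R) : Submodule ℂ R := zSpan ell Finset.univ 1

theorem prod_pow_mem (ell : Fin a → W →ₗ[ℂ] R) (l : W) (j : ℕ) :
    (∏ i, ell i l) ^ j ∈ zB ell ^ j :=
  Submodule.pow_mem_pow _ (Submodule.subset_span (s := Set.range fun l : W => (∏ i ∈ Finset.univ, ell i l) ^ 1) ⟨l, pow_one _⟩) j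

theorem symSub_le (ell : Fin a → W →ₗ[ℂ] R) (N d : ℕ) (hd : a * N ≤ d) :
    symSub ell d ≤ zSpan ell Finset.univ N * symSub ell (d - N) := by
  rw [symSub, Submodule.map_le_iff_le_comap]
  refine (key_lemma (permMap ell) N Finset.univ d (by simpa using hd)).trans ?_
  rw [Submodule.mul_le]
  intro m hm n hn
  rw [Submodule.mem_comap]
  induction hm using Submodule.span_induction with
  | mem x hx =>
    obtain ⟨l, rfl⟩ := hx
    have : sumMap a ((∏ i, permMap ell i l) ^ N * n) = (∏ i, ell i l) ^ N * sumMap a n := by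
      rw [sumMap_apply, sumMap_apply, Finset.mul_sum]
      refine Finset.sum_congr rfl fun σ _ => ?_
      simp only [Pi.mul_apply, Pi.pow_apply, Finset.prod_apply, permMap, LinearMap.pi_apply]
      rw [Equiv.prod_comp σ (fun i => ell i l)]
    rw [this]
    exact Submodule.mul_mem_mul (Submodule.subset_span ⟨l, rfl⟩)
      (Submodule.mem_map_of_mem hn)
  | zero => simp
  | add x y _ _ hx hy => rw [add_mul, map_add]; exact add_mem hx hy
  | smul c x _ hx => rw [smul_mul_assoc, map_smul]; exact Submodule.smul_mem _ _ hx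

theorem neg_one_pow_mul_mem (S : Submodule ℂ R) {x : R} (h : x ∈ S) (n : ℕ) :
    (-1 : R) ^ n * x ∈ S := by
  rcases neg_one_pow_eq_or R n with e | e <;> rw [e] <;> simp [h]

theorem psum_mem_pow (S : Submodule ℂ R) (Y : Fin a → R)
    (h : ∀ k, MvPolynomial.aeval Y (MvPolynomial.esymm (Fin a) ℂ k) ∈ S ^ k) :
    ∀ k, 0 < k → MvPolynomial.aeval Y (MvPolynomial.psum (Fin a) ℂ k) ∈ S ^ k := by
  intro k
  induction k using Nat.strong_induction_on with
  | _ k ih =>
    intro hk
    rw [MvPolynomial.psum_eq_mul_esymm_sub_sum (Fin a) ℂ k hk, map_sub, map_sum]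
    refine sub_mem ?_ (Submodule.sum_mem _ fun t ht => ?_)
    · simp only [map_mul, map_pow, map_neg, map_one, map_natCast, mul_assoc]
      refine neg_one_pow_mul_mem _ ?_ _
      rw [← map_natCast (algebraMap ℂ R), ← Algebra.smul_def]
      exact Submodule.smul_mem _ _ (h k)
    · simp only [Finset.mem_filter, Finset.HasAntidiagonal.mem_antidiagonal, Set.mem_Ioo] at ht
      simp only [map_mul, map_pow, map_neg, map_one, mul_assoc]
      refine neg_one_pow_mul_mem _ ?_ _
      rw [← ht.1, pow_add]
      exact Submodule.mul_mem_mul (h _) (ih _ (by omega) (by omega))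

theorem esymm_mem_pow (S : Submodule ℂ R) (Y : Fin a → R)
    (h : ∀ k, 0 < k → MvPolynomial.aeval Y (MvPolynomial.psum (Fin a) ℂ k) ∈ S ^ k) :
    ∀ k, MvPolynomial.aeval Y (MvPolynomial.esymm (Fin a) ℂ k) ∈ S ^ k := by
  intro k
  induction k using Nat.strong_induction_on with
  | _ k ih =>
    rcases Nat.eq_zero_or_pos k with rfl | hk
    · rw [MvPolynomial.esymm_zero, map_one, pow_zero]
      exact Submodule.one_le.mp le_rfl
    have hmem : (k : ℂ) • MvPolynomial.aeval Y (MvPolynomial.esymm (Fin a) ℂ k) ∈ S ^ k := by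
      have e := congrArg (MvPolynomial.aeval Y) (MvPolynomial.mul_esymm_eq_sum (Fin a) ℂ k)
      simp only [map_mul, map_pow, map_neg, map_one, map_natCast, map_sum] at e
      rw [Algebra.smul_def, map_natCast, e]
      refine neg_one_pow_mul_mem _ (Submodule.sum_mem _ fun t ht => ?_) _
      simp only [Finset.mem_filter, Finset.HasAntidiagonal.mem_antidiagonal] at ht
      rw [mul_assoc]
      refine neg_one_pow_mul_mem _ ?_ _
      rw [← ht.1, pow_add]
      exact Submodule.mul_mem_mul (ih _ (by omega)) (h _ (by omega))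
    have h2 := (S ^ k).smul_mem (k : ℂ)⁻¹ hmem
    rwa [smul_smul, inv_mul_cancel₀ (by exact_mod_cast hk.ne'), one_smul] at h2

theorem prod_erase_prod (L : Fin a → R) (s : Finset (Fin a)) (hs : s.Nonempty) :
    ∏ i ∈ s, (∏ j ∈ Finset.univ.erase i, L j) = (∏ j, L j) ^ (s.card - 1) * ∏ j ∈ sᶜ, L j := by
  induction hs using Finset.Nonempty.cons_induction with
  | singleton i => simp [Finset.compl_singleton]
  | cons i t hi ht ih =>
    rw [Finset.prod_cons, ih, Finset.card_cons, Nat.add_sub_cancel]
    have e1 : tᶜ = insert i (Finset.cons i t hi)ᶜ := by ext j; simp [Finset.mem_cons]; grind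
    have e3 : i ∉ (Finset.cons i t hi)ᶜ := by simp
    rw [e1, Finset.prod_insert e3]
    have e2 : L i * ∏ j ∈ Finset.univ.erase i, L j = ∏ j, L j :=
      Finset.mul_prod_erase _ _ (Finset.mem_univ i)
    have e4 : (∏ j, L j) ^ t.card = (∏ j, L j) ^ (t.card - 1) * ∏ j, L j := by
      rw [← pow_succ, Nat.sub_add_cancel ht.card_pos]
    rw [e4]
    nth_rw 3 [← e2]
    ring

/-- `f ↦ ∑ i, f i * ∏ j ≠ i, (ell j l) ^ s`. -/
noncomputable def powerMap (ell : Fin a → W →ₗ[ℂ] R) (l : W) (s : ℕ) :
    (Fin a → R) →ₗ[ℂ] R :=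
  ∑ i, (LinearMap.mulRight ℂ ((∏ j ∈ Finset.univ.erase i, ell j l) ^ s)).comp (LinearMap.proj i)

theorem powerMap_apply (ell : Fin a → W →ₗ[ℂ] R) (l : W) (s : ℕ) (f : Fin a → R) :
    powerMap ell l s f = ∑ i, f i * (∏ j ∈ Finset.univ.erase i, ell j l) ^ s := by
  simp [powerMap]

theorem esymm_linear_mem (ell : Fin a → W →ₗ[ℂ] R) (l c : W) (k : ℕ) :
    MvPolynomial.aeval (fun i => ell i c * ∏ j ∈ Finset.univ.erase i, ell j l)
      (MvPolynomial.esymm (Fin a) ℂ k) ∈ zB ell ^ k := by
  rcases Nat.eq_zero_or_pos k with rfl | hk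
  · rw [MvPolynomial.esymm_zero, map_one, pow_zero]
    exact Submodule.one_le.mp le_rfl
  let P : R[X] := ∏ i, (Polynomial.X * Polynomial.C (ell i c) + Polynomial.C (ell i l))
  have hP : P.coeff k ∈ zB ell := by
    apply coeff_mem_of_forall_eval_mem
    intro x
    refine Submodule.subset_span ⟨x • c + l, ?_⟩
    simp only [P, Polynomial.eval_prod, Algebra.smul_def, map_add, map_smul, pow_one,
      Polynomial.eval_add, Polynomial.eval_mul, Polynomial.eval_X, Polynomial.eval_C]
  have hc : P.coeff k = ∑ t ∈ Finset.univ.powersetCard k,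
      (∏ i ∈ t, ell i c) * ∏ i ∈ tᶜ, ell i l := by
    simp only [P]
    rw [Finset.prod_add, Polynomial.finsetSum_coeff, Finset.powersetCard_eq_filter,
      Finset.sum_filter]
    refine Finset.sum_congr rfl fun t _ => ?_
    rw [Finset.prod_mul_distrib, Finset.prod_const, ← map_prod, ← map_prod, mul_assoc,
      ← Polynomial.C_mul, Polynomial.coeff_X_pow_mul', Finset.compl_eq_univ_sdiff]
    rcases lt_trichotomy t.card k with hlt | heq | hgt
    · rw [if_pos hlt.le, if_neg hlt.ne, Polynomial.coeff_C, if_neg (by omega)]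
    · simp [heq, Polynomial.coeff_zero_eq_eval_zero, Polynomial.eval_prod]
    · rw [if_neg (by omega), if_neg hgt.ne']
  have he : MvPolynomial.aeval (fun i => ell i c * ∏ j ∈ Finset.univ.erase i, ell j l)
      (MvPolynomial.esymm (Fin a) ℂ k) = (∏ i, ell i l) ^ (k - 1) * P.coeff k := by
    rw [hc, MvPolynomial.esymm, map_sum, Finset.mul_sum]
    refine Finset.sum_congr rfl fun t ht => ?_
    rw [Finset.mem_powersetCard] at ht
    simp only [map_prod, MvPolynomial.aeval_X]
    rw [Finset.prod_mul_distrib, prod_erase_prod _ t (Finset.card_pos.mp (by omega)), ht.2]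
    ring
  rw [he]
  have := Submodule.mul_mem_mul (prod_pow_mem ell l (k - 1)) hP
  rwa [← pow_succ, Nat.sub_add_cancel hk] at this

theorem powerMap_mem (ell : Fin a → W →ₗ[ℂ] R) (l : W) (s : ℕ) (hs : 0 < s)
    (f : Fin a → R) (hf : f ∈ LinearMap.range (LinearMap.pi ell) ^ s) :
    powerMap ell l s f ∈ zB ell ^ s := by
  have h := range_pow_le (LinearMap.pi ell) s hf
  induction h using Submodule.span_induction with
  | mem x hx =>
    obtain ⟨c, rfl⟩ := hx
    have := psum_mem_pow (zB ell) _ (esymm_linear_mem ell l c) s hs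
    rw [MvPolynomial.psum, map_sum] at this
    convert this using 1
    rw [powerMap_apply]
    simp [mul_pow]
  | zero => simp
  | add x y _ _ hx hy =>
    rename_i h1 h2
    rw [map_add]
    exact add_mem (hx ((Submodule.span_le.mpr (by
      rintro _ ⟨c, rfl⟩; exact Submodule.pow_mem_pow _ (LinearMap.mem_range_self _ c) _)) h1))
      (hy ((Submodule.span_le.mpr (by
      rintro _ ⟨c, rfl⟩; exact Submodule.pow_mem_pow _ (LinearMap.mem_range_self _ c) _)) h2))
  | smul c x hx' hx =>
    rw [map_smul]
    exact Submodule.smul_mem _ _ (hx ((Submodule.span_le.mpr (by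
      rintro _ ⟨c, rfl⟩; exact Submodule.pow_mem_pow _ (LinearMap.mem_range_self _ c) _)) hx'))

theorem prod_mul_pow_mem (ell : Fin a → W →ₗ[ℂ] R) (l : W) (d : ℕ) (Q : Fin a → R)
    (hQ : Q ∈ LinearMap.range (LinearMap.pi ell) ^ d) :
    (∏ i, Q i) * (∏ i, ell i l) ^ ((a - 1) * d) ∈ zB ell ^ (a * d) := by
  rcases Nat.eq_zero_or_pos a with rfl | ha
  · simp only [Finset.univ_eq_empty, Finset.prod_empty, one_pow, mul_one, zero_mul, pow_zero]
    exact Submodule.one_le.mp le_rfl
  rcases Nat.eq_zero_or_pos d with rfl | hd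
  · rw [pow_zero] at hQ
    obtain ⟨c, rfl⟩ := Submodule.mem_one.mp hQ
    simp only [mul_zero, pow_zero, mul_one, Pi.algebraMap_apply, Finset.prod_const, ← map_pow]
    exact Submodule.mem_one.mpr ⟨_, rfl⟩
  let Y : Fin a → R := fun i => Q i * (∏ j ∈ Finset.univ.erase i, ell j l) ^ d
  have hp : ∀ k, 0 < k → MvPolynomial.aeval Y (MvPolynomial.psum (Fin a) ℂ k) ∈
      (zB ell ^ d) ^ k := by
    intro k hk
    have h1 := powerMap_mem ell l (d * k) (Nat.mul_pos hd hk) (Q ^ k)
      (by rw [pow_mul]; exact Submodule.pow_mem_pow _ hQ k)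
    rw [pow_mul] at h1
    convert h1 using 1
    rw [powerMap_apply]
    simp [MvPolynomial.psum, Y, mul_pow, pow_mul]
  have h2 := esymm_mem_pow (zB ell ^ d) Y hp a
  rw [← pow_mul, mul_comm d a] at h2
  convert h2 using 1
  have hu : Finset.univ.powersetCard a = ({Finset.univ} : Finset (Finset (Fin a))) := by
    simpa using Finset.powersetCard_self (Finset.univ : Finset (Fin a))
  haveI : Nonempty (Fin a) := ⟨⟨0, ha⟩⟩
  simp only [MvPolynomial.esymm, hu, Finset.sum_singleton, map_prod, MvPolynomial.aeval_X, Y,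
    Finset.prod_mul_distrib, Finset.prod_pow]
  rw [prod_erase_prod _ _ Finset.univ_nonempty]
  simp [← pow_mul]

theorem inclusion_exclusion {M : Type*} [AddCommGroup M] (F : (Fin a → Fin a) → M) :
    ∑ S : Finset (Fin a), (-1 : ℤ) ^ Sᶜ.card • ∑ g ∈ Fintype.piFinset (fun _ : Fin a => S), F g =
      ∑ σ : Equiv.Perm (Fin a), F σ := by
  have h1 : ∀ g : Fin a → Fin a,
      (∑ S : Finset (Fin a), if g ∈ Fintype.piFinset (fun _ : Fin a => S) then
        (-1 : ℤ) ^ Sᶜ.card else 0) = if Function.Bijective g then 1 else 0 := by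
    intro g
    rw [← Finset.sum_filter]
    have h2 : ∑ S ∈ Finset.univ.filter (fun S => g ∈ Fintype.piFinset (fun _ : Fin a => S)),
        (-1 : ℤ) ^ Sᶜ.card = ∑ T ∈ ((Finset.univ.image g)ᶜ).powerset, (-1 : ℤ) ^ T.card := by
      refine Finset.sum_nbij' (fun S => Sᶜ) (fun T => Tᶜ) ?_ ?_ ?_ ?_ ?_
      · intro S hS; simp [Finset.subset_iff] at hS ⊢; grind
      · intro S hS; simp [Finset.subset_iff] at hS ⊢; grind
      all_goals intros; simp
    rw [h2, Finset.sum_powerset_neg_one_pow_card]
    congr 1
    rw [eq_iff_iff, Finset.compl_eq_empty_iff]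
    rw [← Finite.surjective_iff_bijective]
    simp [Function.Surjective, Finset.eq_univ_iff_forall]
  calc ∑ S : Finset (Fin a), (-1 : ℤ) ^ Sᶜ.card •
        ∑ g ∈ Fintype.piFinset (fun _ : Fin a => S), F g
      = ∑ g : Fin a → Fin a, (∑ S : Finset (Fin a),
          if g ∈ Fintype.piFinset (fun _ : Fin a => S) then (-1 : ℤ) ^ Sᶜ.card else 0) • F g := by
        simp only [Finset.sum_smul, ite_smul, zero_smul, Finset.smul_sum]
        rw [Finset.sum_comm]
        refine Finset.sum_congr rfl fun S _ => ?_
        rw [← Finset.sum_filter]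
        refine Finset.sum_congr ?_ fun _ _ => rfl
        ext g; simp
    _ = ∑ g ∈ Finset.univ.filter (fun g : Fin a → Fin a => Function.Bijective g), F g := by
        simp only [h1, ite_smul, one_smul, zero_smul, Finset.sum_filter]
    _ = ∑ σ : Equiv.Perm (Fin a), F σ := by
        refine Finset.sum_bij' (fun g hg => Equiv.ofBijective g (Finset.mem_filter.mp hg).2)
          (fun σ _ => ⇑σ) ?_ ?_ ?_ ?_ ?_
        all_goals intros
        all_goals first | exact Finset.mem_univ _ | exact Finset.mem_filter.mpr ⟨Finset.mem_univ _, Equiv.bijective _⟩ | (ext; rfl) | rfl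

theorem symSub_mul_pow_mem (ell : Fin a → W →ₗ[ℂ] R) (l : W) (d : ℕ) {x : R}
    (hx : x ∈ symSub ell d) :
    x * (∏ i, ell i l) ^ ((a - 1) * d) ∈ zB ell ^ (a * d) := by
  suffices h : symSub ell d ≤ (zB ell ^ (a * d)).comap
      (LinearMap.mulRight ℂ ((∏ i, ell i l) ^ ((a - 1) * d))) from h hx
  rw [symSub, Submodule.map_le_iff_le_comap, ← Finset.prod_pow]
  refine (Finset.prod_le_prod' fun i _ => range_pow_le (permMap ell i) d).trans ?_
  rw [Submodule.prod_span, Submodule.span_le]
  intro g hg
  obtain ⟨c', hc', rfl⟩ := Set.mem_fintype_prod _ _ |>.mp hg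
  choose c hc using hc'
  simp only [SetLike.mem_coe, Submodule.mem_comap, LinearMap.mulRight_apply]
  have e : sumMap a (∏ i, c' i) = ∑ σ : Equiv.Perm (Fin a), ∏ j, ell j (c (σ j)) ^ d := by
    rw [sumMap_apply, ← Equiv.sum_comp (Equiv.inv (Equiv.Perm (Fin a)))]
    refine Finset.sum_congr rfl fun σ _ => ?_
    rw [Finset.prod_apply, ← Equiv.prod_comp σ]
    refine Finset.prod_congr rfl fun j _ => ?_
    rw [← hc (σ j)]
    simp [permMap]
  rw [e, ← inclusion_exclusion (fun g => ∏ j, ell j (c (g j)) ^ d), Finset.sum_mul]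
  refine Submodule.sum_mem _ fun S _ => ?_
  rw [smul_mul_assoc]
  refine zsmul_mem ?_ _
  have hQ : (∑ k ∈ S, (LinearMap.pi ell (c k)) ^ d) ∈ LinearMap.range (LinearMap.pi ell) ^ d :=
    Submodule.sum_mem _ fun k _ => Submodule.pow_mem_pow _ (LinearMap.mem_range_self _ _) _
  have := prod_mul_pow_mem ell l d _ hQ
  simp only [Finset.sum_apply, Pi.pow_apply, LinearMap.pi_apply] at this
  rw [Finset.prod_univ_sum] at this
  exact this

theorem symSub_mul_zpow_mem (ell : Fin a → W →ₗ[ℂ] R) (l : W) :
    ∀ d (x : R), x ∈ symSub ell d →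
      x * (∏ i, ell i l) ^ ((a - 1) ^ 2) ∈ zB ell ^ (d + (a - 1) ^ 2) := by
  intro d
  induction d using Nat.strong_induction_on with
  | _ d ih =>
    intro x hx
    by_cases hd : d ≤ a - 1
    · have h1 := symSub_mul_pow_mem ell l d hx
      have h2 := Submodule.mul_mem_mul h1 (prod_pow_mem ell l ((a - 1) * (a - 1 - d)))
      rw [mul_assoc, ← pow_add, ← pow_add] at h2
      have e1 : (a - 1) * d + (a - 1) * (a - 1 - d) = (a - 1) ^ 2 := by
        rw [← mul_add, Nat.add_sub_cancel' hd, sq]
      rw [e1] at h2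
      convert h2 using 2
      rcases Nat.eq_zero_or_pos a with rfl | ha
      · obtain rfl : d = 0 := by omega
        simp
      · obtain ⟨b, rfl⟩ : ∃ b, a = b + 1 := ⟨a - 1, by omega⟩
        simp only [Nat.add_sub_cancel] at e1 ⊢
        rw [← e1]
        ring
    · have h := symSub_le ell 1 d (by omega) hx
      revert h
      generalize x = y
      intro h
      induction h using Submodule.mul_induction_on' with
      | mem_mul_mem m hm n hn =>
        have := Submodule.mul_mem_mul hm (ih (d - 1) (by omega) n hn)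
        rw [show zB ell * zB ell ^ (d - 1 + (a - 1) ^ 2) = zB ell ^ (d + (a - 1) ^ 2) by
          rw [← pow_succ']; congr 1; omega] at this
        rwa [mul_assoc]
      | add u _ v _ hu hv => rw [add_mul]; exact add_mem hu hv

/-- Main algebraic statement: symmetrised products of degree `b` are combinations of products of
`b` elements `∏ i, ell i l`, as soon as `a * (a - 1) ^ 2 ≤ b`. -/
theorem symSub_le_pow (ell : Fin a → W →ₗ[ℂ] R) (b : ℕ) (hb : a * (a - 1) ^ 2 ≤ b) :
    symSub ell b ≤ Submodule.span ℂ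
      (Set.range fun l : Fin b → W => ∏ j, ∏ i, ell i (l j)) := by
  have h1 : symSub ell b ≤ zB ell ^ b := by
    rcases Nat.eq_zero_or_pos a with rfl | ha
    · intro x hx
      have := symSub_mul_zpow_mem ell 0 b x hx
      simpa using this
    refine (symSub_le ell ((a - 1) ^ 2) b hb).trans ?_
    rw [Submodule.mul_le]
    intro m hm n hn
    have hNb : (a - 1) ^ 2 ≤ b := le_trans (Nat.le_mul_of_pos_left _ ha) hb
    induction hm using Submodule.span_induction with
    | mem x hx =>
      obtain ⟨l, rfl⟩ := hx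
      have := symSub_mul_zpow_mem ell l _ n hn
      rw [Nat.sub_add_cancel hNb] at this
      simpa [mul_comm] using this
    | zero => simp
    | add x y _ _ hx hy => rw [add_mul]; exact add_mem hx hy
    | smul c x _ hx => rw [smul_mul_assoc]; exact Submodule.smul_mem _ _ hx
  refine h1.trans ?_
  rw [zB, zSpan, Submodule.span_pow]
  refine Submodule.span_mono ?_
  intro x hx
  obtain ⟨f, rfl⟩ := Set.mem_pow.mp hx
  choose l hl using fun j => (f j).2
  exact ⟨l, by simp [List.prod_ofFn, ← hl]⟩

end Blocks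

end Vale.Agent.P181
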