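import Vale.Agent.P181.Core

/-!
Quadratic threshold for the Foulkes-Howe map: the algebraic core.

If a split form `c` contains a linear factor of multiplicity at least `a - 1`, then
`∑ i, f i * ∏ j ≠ i, c j` lies in the algebra spanned by the `∏ i, ell i l`.
This lets Newton's identities use a different linear form for each row.
-/

namespace Vale.Agent.P181

open Finset Polynomial

variable {R : Type*} [CommRing R] [Algebra ℂ R] {W : Type*} [AddCommGroup W] [Module ℂ W]
  {a : ℕ}

/-- `f ↦ ∑ i, f i * ∏ j ≠ i, c j`. -/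
noncomputable def phi (c : Fin a → R) : (Fin a → R) →ₗ[ℂ] R :=
  ∑ i, (LinearMap.mulRight ℂ (∏ j ∈ Finset.univ.erase i, c j)).comp (LinearMap.proj i)

theorem phi_apply (c f : Fin a → R) :
    phi c f = ∑ i, f i * ∏ j ∈ Finset.univ.erase i, c j := by
  simp [phi]

/-- All the sums `phi c f`, with `f` of degree `D`, have degree `D` in the `∏ i, ell i l`. -/
def Good (ell : Fin a → W →ₗ[ℂ] R) (c : Fin a → R) (D : ℕ) : Prop :=
  ∀ f ∈ LinearMap.range (LinearMap.pi ell) ^ D, phi c f ∈ zB ell ^ D

theorem good_pow (ell : Fin a → W →ₗ[ℂ] R) (l : W) (s : ℕ) (hs : 0 < s) :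
    Good ell (LinearMap.pi ell l ^ s) s := by
  intro f hf
  have h := powerMap_mem ell l s hs f hf
  rw [powerMap_apply] at h
  rw [phi_apply]
  simpa [Finset.prod_pow] using h

theorem good_mul (ell : Fin a → W →ₗ[ℂ] R) (c : Fin a → R) (D : ℕ) (hD : a ≤ D + 1)
    (hc : Good ell c D) (l : W) : Good ell (c * LinearMap.pi ell l) (D + 1) := by
  intro f hf
  suffices h : LinearMap.range (LinearMap.pi ell) ^ (D + 1) ≤
      (zB ell ^ (D + 1)).comap (phi (c * LinearMap.pi ell l)) from h hf
  refine (range_pow_le (LinearMap.pi ell) (D + 1)).trans ?_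
  rw [Submodule.span_le]
  rintro _ ⟨w, rfl⟩
  rw [SetLike.mem_coe, Submodule.mem_comap, phi_apply]
  let P : R[X] := ∏ j, (Polynomial.X * Polynomial.C (ell j w) + Polynomial.C (ell j l))
  let Q : Fin a → R[X] := fun i =>
    ∏ j ∈ Finset.univ.erase i, (Polynomial.X * Polynomial.C (ell j w) + Polynomial.C (ell j l))
  have hE : ∀ k, P.coeff k ∈ zB ell := by
    intro k
    apply coeff_mem_of_forall_eval_mem
    intro x
    refine Submodule.subset_span ⟨x • w + l, ?_⟩
    simp only [P, Polynomial.eval_prod, Algebra.smul_def, map_add, map_smul, pow_one,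
      Polynomial.eval_add, Polynomial.eval_mul, Polynomial.eval_X, Polynomial.eval_C]
  have hPQ : ∀ i k, P.coeff (k + 1) = ell i w * (Q i).coeff k + ell i l * (Q i).coeff (k + 1) := by
    intro i k
    simp only [P, Q]
    rw [← Finset.mul_prod_erase Finset.univ _ (Finset.mem_univ i), add_mul, mul_assoc,
      Polynomial.coeff_add, Polynomial.coeff_X_mul, Polynomial.coeff_C_mul,
      Polynomial.coeff_C_mul]
  have hQa : ∀ i, (Q i).coeff a = 0 := by
    intro i
    apply Polynomial.coeff_eq_zero_of_natDegree_lt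
    have ha : 0 < a := i.pos
    refine lt_of_le_of_lt ((Polynomial.natDegree_prod_le _ _).trans
      (Finset.sum_le_card_nsmul _ _ 1 fun j _ => ?_)) ?_
    · exact (Polynomial.natDegree_add_le _ _).trans
        (by simp [(Polynomial.natDegree_mul_le).trans, Polynomial.natDegree_X_le])
    · simp [Finset.card_erase_of_mem]
      omega
  have hQ0 : ∀ i, (Q i).coeff 0 = ∏ j ∈ Finset.univ.erase i, ell j l := by
    intro i
    simp [Q, Polynomial.coeff_zero_eq_eval_zero, Polynomial.eval_prod]
  have key : ∀ i, ell i w ^ (D + 1) * ∏ j ∈ Finset.univ.erase i, ell j l =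
      ∑ k ∈ range a, (-1 : R) ^ k * P.coeff (k + 1) * (ell i w ^ (D - k) * ell i l ^ k) := by
    intro i
    let T : ℕ → R := fun k => (-1 : R) ^ k * (Q i).coeff k * (ell i w ^ (D + 1 - k) * ell i l ^ k)
    have hT : ∀ k ∈ range a, (-1 : R) ^ k * P.coeff (k + 1) * (ell i w ^ (D - k) * ell i l ^ k) =
        T k - T (k + 1) := by
      intro k hk
      have hk' : k < a := Finset.mem_range.mp hk
      simp only [T]
      rw [hPQ i k, show D + 1 - k = (D - k) + 1 by omega, show D + 1 - (k + 1) = D - k by omega]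
      ring
    rw [Finset.sum_congr rfl hT, Finset.sum_range_sub']
    simp only [T, hQ0, hQa]
    simp
    ring
  have hsum : ∑ i, (LinearMap.pi ell w ^ (D + 1)) i *
        ∏ j ∈ Finset.univ.erase i, (c * LinearMap.pi ell l) j =
      ∑ k ∈ range a, (-1 : R) ^ k *
        (P.coeff (k + 1) * phi c (LinearMap.pi ell w ^ (D - k) * LinearMap.pi ell l ^ k)) := by
    simp only [phi_apply, Finset.mul_sum]
    rw [Finset.sum_comm]
    refine Finset.sum_congr rfl fun i _ => ?_
    simp only [Pi.mul_apply, Pi.pow_apply, LinearMap.pi_apply, Finset.prod_mul_distrib]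
    rw [mul_comm (∏ j ∈ Finset.univ.erase i, c j), ← mul_assoc, key, Finset.sum_mul]
    exact Finset.sum_congr rfl fun k _ => by ring
  rw [hsum]
  refine Submodule.sum_mem _ fun k hk => neg_one_pow_mul_mem _ ?_ _
  have hk' : k < a := Finset.mem_range.mp hk
  rw [pow_succ']
  refine Submodule.mul_mem_mul (hE _) (hc _ ?_)
  have : LinearMap.range (LinearMap.pi ell) ^ D =
      LinearMap.range (LinearMap.pi ell) ^ (D - k) * LinearMap.range (LinearMap.pi ell) ^ k := by
    rw [← pow_add, show D - k + k = D by omega]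
  rw [this]
  exact Submodule.mul_mem_mul (Submodule.pow_mem_pow _ (LinearMap.mem_range_self _ w) _)
    (Submodule.pow_mem_pow _ (LinearMap.mem_range_self _ l) _)

theorem good_mul_pow (ell : Fin a → W →ₗ[ℂ] R) (c : Fin a → R) (D : ℕ) (hD : a ≤ D + 1)
    (hc : Good ell c D) (l : W) :
    ∀ r, Good ell (c * LinearMap.pi ell l ^ r) (D + r) := by
  intro r
  induction r with
  | zero => simpa using hc
  | succ r ih =>
    rw [pow_succ, ← mul_assoc, ← add_assoc]
    exact good_mul ell _ _ (by omega) ih l

/-- Any product of `(a-1)`st powers of linear forms is good. -/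
theorem good_prod (ell : Fin a → W →ₗ[ℂ] R) (ha : 2 ≤ a) (n : ℕ) (l : Fin (n + 1) → W) :
    Good ell (∏ t, LinearMap.pi ell (l t) ^ (a - 1)) ((n + 1) * (a - 1)) := by
  induction n with
  | zero => simpa using good_pow ell (l 0) (a - 1) (by omega)
  | succ n ih =>
    rw [Fin.prod_univ_castSucc, show (n + 1 + 1) * (a - 1) = (n + 1) * (a - 1) + (a - 1) by ring]
    have : a - 1 ≤ (n + 1) * (a - 1) := Nat.le_mul_of_pos_left _ (by omega)
    exact good_mul_pow ell _ _ (by omega) (ih fun t => l t.castSucc) _ _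

/-- Newton's identities with one linear form for each row. -/
theorem sum_perm_mem (ell : Fin a → W →ₗ[ℂ] R) (ha : 2 ≤ a) (c l : Fin a → W) :
    ∑ σ : Equiv.Perm (Fin a), ∏ j, (ell (σ j) (c j) ^ (a - 1) *
        (∏ i ∈ Finset.univ.erase (σ j), ell i (l j)) ^ (a - 1)) ∈
      zB ell ^ (a * (a - 1)) := by
  set d := a - 1 with hd
  let Y : Fin a → Fin a → R := fun j i =>
    ell i (c j) ^ d * (∏ i' ∈ Finset.univ.erase i, ell i' (l j)) ^ d
  have e : ∑ σ : Equiv.Perm (Fin a), ∏ j, (ell (σ j) (c j) ^ d *
        (∏ i ∈ Finset.univ.erase (σ j), ell i (l j)) ^ d) =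
      ∑ σ : Equiv.Perm (Fin a), ∏ i, Y (σ i) i := by
    rw [← Equiv.sum_comp (Equiv.inv (Equiv.Perm (Fin a)))]
    refine Finset.sum_congr rfl fun σ _ => ?_
    rw [← Equiv.prod_comp σ]
    simp [Y]
  rw [e, ← inclusion_exclusion (fun g => ∏ i, Y (g i) i)]
  refine Submodule.sum_mem _ fun S _ => zsmul_mem ?_ _
  let Z : Fin a → R := fun i => ∑ j ∈ S, Y j i
  have hp : ∀ k, 0 < k → MvPolynomial.aeval Z (MvPolynomial.psum (Fin a) ℂ k) ∈
      (zB ell ^ d) ^ k := by
    intro k hk
    obtain ⟨n, rfl⟩ : ∃ n, k = n + 1 := ⟨k - 1, by omega⟩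
    simp only [MvPolynomial.psum, map_sum, map_pow, MvPolynomial.aeval_X, Z, Finset.sum_pow']
    rw [Finset.sum_comm]
    refine Submodule.sum_mem _ fun g _ => ?_
    have hg := good_prod ell ha n (fun t => l (g t)) (∏ t, LinearMap.pi ell (c (g t)) ^ d) ?_
    · rw [← pow_mul, mul_comm]
      convert hg using 1
      rw [phi_apply]
      refine Finset.sum_congr rfl fun i _ => ?_
      simp only [Y, Finset.prod_apply, Pi.pow_apply, LinearMap.pi_apply, Finset.prod_mul_distrib]
      congr 1
      rw [Finset.prod_comm]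
      simp only [Finset.prod_pow]
      rfl
    · rw [mul_comm, pow_mul]
      have hmem : ∀ s : Finset (Fin (n + 1)), ∏ t ∈ s, LinearMap.pi ell (c (g t)) ^ d ∈
          (LinearMap.range (LinearMap.pi ell) ^ d) ^ s.card := by
        intro s
        induction s using Finset.induction_on with
        | empty =>
          rw [Finset.prod_empty, Finset.card_empty, pow_zero]
          exact Submodule.one_le.mp le_rfl
        | insert t s ht ih =>
          rw [Finset.prod_insert ht, Finset.card_insert_of_notMem ht, pow_succ']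
          exact Submodule.mul_mem_mul (Submodule.pow_mem_pow _ (LinearMap.mem_range_self _ _) _) ih
      simpa using hmem Finset.univ
  have h2 := esymm_mem_pow (zB ell ^ d) Z hp a
  rw [← pow_mul, mul_comm d a] at h2
  convert h2 using 1
  have hu : Finset.univ.powersetCard a = ({Finset.univ} : Finset (Finset (Fin a))) := by
    simpa using Finset.powersetCard_self (Finset.univ : Finset (Fin a))
  simp only [MvPolynomial.esymm, hu, Finset.sum_singleton, map_prod, MvPolynomial.aeval_X, Z]
  rw [Finset.prod_univ_sum]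

theorem prod_pow_split {ι : Type*} [Fintype ι] {M : Type*} [CommMonoid M] (U : ι → M)
    (f g : ι → ℕ) : ∏ k, U k ^ (f k + g k) = (∏ k, U k ^ f k) * ∏ k, U k ^ g k := by
  simp [pow_add, Finset.prod_mul_distrib]

/-- Extract an `N`th power ideal for the complement of each point in turn. -/
theorem split_lemma (ell : Fin a → W →ₗ[ℂ] R) (N b : ℕ) (hb : (2 * a - 3) * N ≤ b) :
    ∀ J : Finset (Fin a), (∏ k, LinearMap.range (ell k) ^ b) ≤
      (∏ j ∈ J, zSpan ell (Finset.univ.erase j) N) *
        ∏ k, LinearMap.range (ell k) ^ (b - (J.erase k).card * N) := by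
  intro J
  induction J using Finset.induction_on with
  | empty => simp
  | @insert j J hj ih =>
    refine ih.trans ?_
    rw [Finset.prod_insert hj, mul_comm (zSpan ell (Finset.univ.erase j) N) (∏ i ∈ J, _), mul_assoc]
    refine mul_le_mul' le_rfl ?_
    let U : Fin a → Submodule ℂ R := fun k => LinearMap.range (ell k)
    let u : Fin a → ℕ := fun k => if k = j then 0 else 1
    have hu : ∀ q, (∏ k ∈ Finset.univ.erase j, U k) ^ q = ∏ k, U k ^ (q * u k) := by
      intro q
      rw [← Finset.prod_pow, ← Finset.mul_prod_erase Finset.univ (fun k => U k ^ (q * u k))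
        (Finset.mem_univ j)]
      simp only [u, if_pos rfl, mul_zero, pow_zero, one_mul]
      exact Finset.prod_congr rfl fun k hk => by simp [Finset.ne_of_mem_erase hk]
    set q := (a - 1) * N with hq
    have hle : ∀ k, q * u k ≤ b - (J.erase k).card * N := by
      intro k
      by_cases hkj : k = j
      · simp [u, hkj]
      have h1 : (J.erase k).card + 2 ≤ a := by
        have hs : J.erase k ⊆ (Finset.univ.erase j).erase k := by
          intro x hx
          simp at hx ⊢
          exact ⟨hx.1, fun h => hj (h ▸ hx.2)⟩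
        have := Finset.card_le_card hs
        have h5 : k ∈ (Finset.univ : Finset (Fin a)).erase j := by simp [hkj]
        rw [Finset.card_erase_of_mem h5, Finset.card_erase_of_mem (Finset.mem_univ j),
          Finset.card_univ, Fintype.card_fin] at this
        have : 1 < a := by
          have := Fin.val_ne_of_ne hkj
          omega
        omega
      have h2 : (J.erase k).card * N ≤ (a - 2) * N := Nat.mul_le_mul_right _ (by omega)
      have h3 : (2 * a - 3) * N = (a - 1) * N + (a - 2) * N := by
        rw [← add_mul]; congr 1; omega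
      simp only [u, if_neg hkj, mul_one]
      omega
    have e1 : (∏ k, U k ^ (b - (J.erase k).card * N)) =
        (∏ k ∈ Finset.univ.erase j, U k) ^ q *
          ∏ k, U k ^ (b - (J.erase k).card * N - q * u k) := by
      rw [hu, ← prod_pow_split]
      exact Finset.prod_congr rfl fun k _ => by rw [Nat.add_sub_cancel' (hle k)]
    rw [show (∏ k, LinearMap.range (ell k) ^ (b - (J.erase k).card * N)) =
      ∏ k, U k ^ (b - (J.erase k).card * N) from rfl, e1]
    refine (mul_le_mul' (key_lemma ell N (Finset.univ.erase j) q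
      (by simp [hq])) le_rfl).trans ?_
    rw [mul_assoc]
    refine mul_le_mul' le_rfl ?_
    rw [hu, ← prod_pow_split]
    apply le_of_eq
    refine Finset.prod_congr rfl fun k _ => ?_
    congr 1
    have := hle k
    by_cases hkj : k = j
    · subst hkj
      simp [u, Finset.erase_insert_eq_erase]
    · have hc : ((insert j J).erase k).card = (J.erase k).card + 1 := by
        rw [Finset.erase_insert_of_ne (Ne.symm hkj), Finset.card_insert_of_notMem (by simp [hj])]
      have ha : 2 ≤ a := by
        have := Fin.val_ne_of_ne hkj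
        omega
      have hqN : N ≤ q := by rw [hq]; exact Nat.le_mul_of_pos_left _ (by omega)
      simp only [u, if_neg hkj, mul_one, hc, add_mul, one_mul] at this ⊢
      omega

theorem degree_down (ell : Fin a → W →ₗ[ℂ] R) (d : ℕ) (hd : a ≤ d + 1) :
    ∀ m, (∏ i, LinearMap.range (ell i)) ^ (d + m) ≤
      zB ell ^ m * (∏ i, LinearMap.range (ell i)) ^ d := by
  intro m
  induction m with
  | zero => simp
  | succ m ih =>
    refine (key_lemma ell 1 Finset.univ (d + (m + 1)) (by simp; omega)).trans ?_
    rw [show d + (m + 1) - 1 = d + m by omega, pow_succ', mul_assoc]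
    exact mul_le_mul' le_rfl ih

theorem zB_permMap_le (ell : Fin a → W →ₗ[ℂ] R) :
    zB (permMap ell) ≤
      (zB ell).map (Pi.constAlgHom ℂ (Equiv.Perm (Fin a)) R).toLinearMap := by
  rw [zB, zSpan, Submodule.span_le]
  rintro _ ⟨l, rfl⟩
  refine ⟨(∏ i, ell i l) ^ 1, Submodule.subset_span ⟨l, rfl⟩, ?_⟩
  funext σ
  simp [permMap, Equiv.prod_comp σ (fun i => ell i l)]

/-- Symmetrised products of degree `b` lie in `zB ^ b` for quadratically large `b`. -/
theorem symSub_le_zB_pow (ell : Fin a → W →ₗ[ℂ] R) (ha : 2 ≤ a) (b : ℕ)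
    (hab : a ≤ b) (hb : (2 * a - 3) * (a - 1) ≤ b) : symSub ell b ≤ zB ell ^ b := by
  set d := a - 1 with hd
  have hb2 : a * d ≤ b := by
    by_cases h3 : a = 2
    · subst h3; simp [hd]; omega
    · exact (Nat.mul_le_mul_right d (by omega : a ≤ 2 * a - 3)).trans hb
  have e : a * d = d + (a - 1) * d := by
    nth_rw 1 [show a = 1 + (a - 1) by omega]
    ring
  obtain ⟨m, hm⟩ : ∃ m, b = a * d + m := ⟨b - a * d, by omega⟩
  rw [symSub, Submodule.map_le_iff_le_comap, ← Finset.prod_pow]
  refine (split_lemma (permMap ell) d b hb Finset.univ).trans ?_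
  have e2 : ∀ k : Fin a, b - ((Finset.univ : Finset (Fin a)).erase k).card * d = d + m := by
    intro k
    rw [Finset.card_erase_of_mem (Finset.mem_univ k), Finset.card_univ, Fintype.card_fin]
    omega
  simp only [e2]
  rw [Finset.prod_pow]
  refine (mul_le_mul' le_rfl (degree_down (permMap ell) d (by omega) m)).trans ?_
  rw [mul_left_comm]
  refine (mul_le_mul' (pow_le_pow_left' (zB_permMap_le ell) m) le_rfl).trans ?_
  rw [← Submodule.map_pow, Submodule.mul_le]
  rintro _ ⟨y, hy, rfl⟩ n hn
  rw [Submodule.mem_comap]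
  have e3 : sumMap a ((Pi.constAlgHom ℂ (Equiv.Perm (Fin a)) R).toLinearMap y * n) =
      y * sumMap a n := by
    simp [sumMap_apply, Finset.mul_sum]
  rw [e3, hm, add_comm, pow_add]
  refine Submodule.mul_mem_mul hy ?_
  revert n
  suffices h : (∏ j, zSpan (permMap ell) (Finset.univ.erase j) d) *
      (∏ i, LinearMap.range (permMap ell i)) ^ d ≤ (zB ell ^ (a * d)).comap (sumMap a) by
    intro n hn _; exact h hn
  rw [← Finset.prod_pow]
  refine (mul_le_mul' le_rfl (Finset.prod_le_prod' fun i _ => range_pow_le (permMap ell i) d)).trans ?_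
  simp only [zSpan]
  rw [Submodule.prod_span, Submodule.prod_span, Submodule.span_mul_span, Submodule.span_le]
  rintro _ ⟨w, hw, t, ht, rfl⟩
  obtain ⟨w', hw', rfl⟩ := Set.mem_fintype_prod _ _ |>.mp hw
  obtain ⟨t', ht', rfl⟩ := Set.mem_fintype_prod _ _ |>.mp ht
  choose l hl using hw'
  choose c hc using ht'
  rw [SetLike.mem_coe, Submodule.mem_comap, sumMap_apply]
  change _ ∈ zB ell ^ (a * d)
  convert sum_perm_mem ell ha c l using 1
  refine Finset.sum_congr rfl fun σ _ => ?_
  simp only [Pi.mul_apply, Finset.prod_apply, ← hl, ← hc]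
  rw [← Finset.prod_mul_distrib]
  refine Finset.prod_congr rfl fun j _ => ?_
  simp only [Pi.pow_apply, Finset.prod_apply, permMap, LinearMap.pi_apply]
  rw [mul_comm]
  congr 2
  exact Finset.prod_equiv σ (by simp) (by simp)

/-- Main algebraic statement: symmetrised products of degree `b` are combinations of products of
`b` elements `∏ i, ell i l`, as soon as `a ≤ b` and `(2a-3)(a-1) ≤ b`. -/
theorem symSub_le_pow_quadratic (ell : Fin a → W →ₗ[ℂ] R) (b : ℕ) (hab : a ≤ b)
    (hb : (2 * a - 3) * (a - 1) ≤ b) :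
    symSub ell b ≤ Submodule.span ℂ
      (Set.range fun l : Fin b → W => ∏ j, ∏ i, ell i (l j)) := by
  rcases le_or_gt a 1 with ha | ha
  · apply symSub_le_pow
    rcases Nat.le_one_iff_eq_zero_or_eq_one.mp ha with rfl | rfl <;> simp
  refine (symSub_le_zB_pow ell ha b hab hb).trans ?_
  rw [zB, zSpan, Submodule.span_pow]
  refine Submodule.span_mono ?_
  intro x hx
  obtain ⟨f, rfl⟩ := Set.mem_pow.mp hx
  choose l hl using fun j => (f j).2
  exact ⟨l, by simp [List.prod_ofFn, ← hl]⟩

end Vale.Agent.P181
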