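import Vale.Agent.P181.Tensor
import Vale.Agent.P181.Quadratic

/-!
Injectivity of the Foulkes-Howe map for `a ≤ b` and `(2a-3)(a-1) ≤ b`.
-/

namespace Vale.Agent.P181

open scoped TensorProduct

universe u

variable {a b : ℕ} {V : Type u} [AddCommGroup V] [Module ℂ V]
  {X : Type*} (bas : Module.Basis X ℂ V)

/-- The linear form in the variables of block `i` given by the coordinates of a vector. -/
noncomputable def blockVar (a : ℕ) (i : Fin a) : V →ₗ[ℂ] MvPolynomial (Fin a × X) ℂ :=
  bas.constr ℂ fun x => MvPolynomial.X (i, x)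

@[simp] theorem blockVar_basis (i : Fin a) (x : X) :
    blockVar bas a i (bas x) = MvPolynomial.X (i, x) := by simp [blockVar]

/-- Exponent of the monomial of a tableau. -/
noncomputable def expo (g : Fin a → Fin b → X) : Fin a × X →₀ ℕ :=
  ∑ i, ∑ j, Finsupp.single (i, g i j) 1

theorem blockVar_prod (g : Fin a → Fin b → X) :
    ∏ i, ∏ j, blockVar bas a i (bas (g i j)) = MvPolynomial.monomial (expo g) 1 := by
  simp [expo, MvPolynomial.monomial_sum_one, MvPolynomial.X]

theorem tprod_eq_of_expo_eq {g g' : Fin a → Fin b → X} (h : expo g = expo g') :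
    (SymmetricPower.tprod ℂ fun i => SymmetricPower.tprod ℂ fun j => bas (g i j)) =
      SymmetricPower.tprod ℂ fun i => SymmetricPower.tprod ℂ fun j => bas (g' i j) := by
  classical
  congr 1
  funext i
  have hcard : ∀ x : X, Fintype.card {j // g i j = x} = Fintype.card {j // g' i j = x} := by
    intro x
    have h2 := congrArg (fun f => f (i, x)) h
    simp only [expo, Finsupp.finsetSum_apply, Finsupp.single_apply] at h2
    have e : ∀ (w : Fin a → Fin b → X), (∑ k, ∑ j, if (k, w k j) = (i, x) then 1 else 0) =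
        Fintype.card {j // w i j = x} := by
      intro w
      rw [Finset.sum_eq_single i, Fintype.card_subtype, Finset.card_filter]
      · simp
      · intro k _ hk
        simp [hk]
      · simp
    rwa [e, e] at h2
  let e : Equiv.Perm (Fin b) := Equiv.ofFiberEquiv fun x => Fintype.equivOfCardEq (hcard x)
  have he : ∀ j, g' i (e j) = g i j := Equiv.ofFiberEquiv_map _
  calc (SymmetricPower.tprod ℂ fun j => bas (g i j))
      = SymmetricPower.tprod ℂ fun j => bas (g' i (e j)) := by simp_rw [he]
    _ = _ := SymmetricPower.tprod_equiv e (fun j => bas (g' i j))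

open Classical in
/-- The tensor of a multihomogeneous monomial. -/
noncomputable def unmono (a b : ℕ) :
    MvPolynomial (Fin a × X) ℂ →ₗ[ℂ] Sym[ℂ]^a (Sym[ℂ]^b V) :=
  (MvPolynomial.basisMonomials (Fin a × X) ℂ).constr ℂ fun E =>
    if h : ∃ g : Fin a → Fin b → X, expo g = E then
      SymmetricPower.tprod ℂ fun i => SymmetricPower.tprod ℂ fun j => bas (h.choose i j)
    else 0

theorem unmono_monomial (g : Fin a → Fin b → X) :
    unmono bas a b (MvPolynomial.monomial (expo g) 1) =
      SymmetricPower.tprod ℂ fun i => SymmetricPower.tprod ℂ fun j => bas (g i j) := by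
  have hex : ∃ g' : Fin a → Fin b → X, expo g' = expo g := ⟨g, rfl⟩
  have e : MvPolynomial.monomial (expo g) (1 : ℂ) =
      MvPolynomial.basisMonomials (Fin a × X) ℂ (expo g) := by
    rw [MvPolynomial.coe_basisMonomials]
  rw [e, unmono, Module.Basis.constr_basis, dif_pos hex]
  exact tprod_eq_of_expo_eq bas hex.choose_spec

theorem unmono_prod (v : Fin a → Fin b → V) :
    unmono bas a b (∏ i, ∏ j, blockVar bas a i (v i j)) =
      SymmetricPower.tprod ℂ fun i => SymmetricPower.tprod ℂ (v i) := by
  have hb : (b.factorial : ℂ) ≠ 0 := Nat.cast_ne_zero.mpr b.factorial_ne_zero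
  let q : Fin a → (Sym[ℂ]^b V →ₗ[ℂ] MvPolynomial (Fin a × X) ℂ) :=
    fun i => (b.factorial : ℂ)⁻¹ • symPair fun _ : Fin b => blockVar bas a i
  have hq : ∀ (i : Fin a) (w : Fin b → V),
      q i (SymmetricPower.tprod ℂ w) = ∏ j, blockVar bas a i (w j) := by
    intro i w
    simp only [q, LinearMap.smul_apply, symPair_tprod, Finset.sum_const, Finset.card_univ,
      Fintype.card_perm, Fintype.card_fin]
    rw [← Nat.cast_smul_eq_nsmul ℂ, smul_smul, inv_mul_cancel₀ hb, one_smul]
  let M : MultilinearMap ℂ (fun _ : Fin a => Sym[ℂ]^b V) (Sym[ℂ]^a (Sym[ℂ]^b V)) :=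
    (unmono bas a b).compMultilinearMap
      ((MultilinearMap.mkPiAlgebra ℂ (Fin a) _).compLinearMap q) - SymmetricPower.tprod ℂ
  have h : M (fun i => SymmetricPower.tprod ℂ (v i)) ∈
      (⊥ : Submodule ℂ (Sym[ℂ]^a (Sym[ℂ]^b V))) := by
    refine multilinear_span M (fun g : Fin b → X => SymmetricPower.tprod ℂ fun j => bas (g j)) _
      (fun g => ?_) _ (fun i => ?_)
    · simp only [M, MultilinearMap.sub_apply, LinearMap.compMultilinearMap_apply,
        MultilinearMap.compLinearMap_apply, MultilinearMap.mkPiAlgebra_apply, hq,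
        Submodule.mem_bot]
      rw [blockVar_prod, unmono_monomial, sub_self]
    · rw [sym_span (fun x => bas x) bas.span_eq]
      trivial
  simpa [M, hq, sub_eq_zero] using h

theorem unmono_pairing (x : Sym[ℂ]^a (Sym[ℂ]^b V)) :
    unmono bas a b (pairing b (blockVar bas a) x) =
      (((b.factorial : ℂ) ^ a) * a.factorial) • x := by
  suffices h : (unmono bas a b).comp (pairing b (blockVar bas a)) =
      (((b.factorial : ℂ) ^ a) * a.factorial) • LinearMap.id from LinearMap.congr_fun h x
  apply LinearMap.ext_on (sym_span (k := a)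
    (SymmetricPower.tprod ℂ : (Fin b → V) → Sym[ℂ]^b V) (SymmetricPower.span_tprod_eq_top ℂ (Fin b) V))
  rintro _ ⟨v, rfl⟩
  simp only [LinearMap.comp_apply, pairing_tprod, LinearMap.smul_apply, LinearMap.id_apply]
  rw [show ((b.factorial : MvPolynomial (Fin a × X) ℂ) ^ a) =
      algebraMap ℂ _ ((b.factorial : ℂ) ^ a) by simp, ← Algebra.smul_def, map_smul, map_sum]
  have key : ∀ σ : Equiv.Perm (Fin a),
      unmono bas a b (∏ i, ∏ j, blockVar bas a (σ i) (v i j)) =
        SymmetricPower.tprod ℂ fun i => SymmetricPower.tprod ℂ (v i) := by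
    intro σ
    rw [← Equiv.prod_comp σ.symm (fun i => ∏ j, blockVar bas a (σ i) (v i j))]
    simp only [Equiv.apply_symm_apply]
    rw [unmono_prod]
    exact SymmetricPower.tprod_equiv σ.symm (fun i => SymmetricPower.tprod ℂ (v i))
  simp only [key, Finset.sum_const, Finset.card_univ, Fintype.card_perm, Fintype.card_fin]
  rw [← Nat.cast_smul_eq_nsmul ℂ, smul_smul]

/-- The Foulkes-Howe map, computed in coordinates. -/
noncomputable def foulkesHowe (a b : ℕ) :
    Sym[ℂ]^a (Sym[ℂ]^b V) →ₗ[ℂ] Sym[ℂ]^b (Sym[ℂ]^a V) :=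
  symLift ((unmono bas b a).compMultilinearMap
      ((MultilinearMap.mkPiAlgebra ℂ (Fin a) _).compLinearMap
        fun _ => symPair (blockVar bas b)))
    (fun e v => by
      simp only [LinearMap.compMultilinearMap_apply, MultilinearMap.compLinearMap_apply,
        MultilinearMap.mkPiAlgebra_apply]
      rw [Equiv.prod_comp e fun i => symPair (blockVar bas b) (v i)])

theorem foulkesHowe_tprod (v : Fin a → Fin b → V) :
    foulkesHowe bas a b (SymmetricPower.tprod ℂ fun i => SymmetricPower.tprod ℂ (v i)) =
      ∑ σ : Fin a → Equiv.Perm (Fin b),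
        SymmetricPower.tprod ℂ fun j => SymmetricPower.tprod ℂ fun i => v i (σ i j) := by
  simp only [foulkesHowe, symLift_tprod, LinearMap.compMultilinearMap_apply,
    MultilinearMap.compLinearMap_apply, MultilinearMap.mkPiAlgebra_apply, symPair_tprod]
  rw [Fintype.prod_sum, map_sum]
  refine Fintype.sum_equiv (Equiv.piCongrRight fun _ => Equiv.inv (Equiv.Perm (Fin b))) _ _
    fun σ => ?_
  have e : ∀ i, ∏ j, blockVar bas b ((σ i) j) (v i j) =
      ∏ j, blockVar bas b j (v i ((σ i)⁻¹ j)) := fun i => by
    rw [← Equiv.prod_comp (σ i)⁻¹ (fun j => blockVar bas b ((σ i) j) (v i j))]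
    simp
  simp only [e]
  rw [Finset.prod_comm, unmono_prod]
  rfl

theorem foulkesHowe_equivariant (g : V →ₗ[ℂ] V) :
    (foulkesHowe bas a b).comp (symMap a (symMap b g)) =
      (symMap b (symMap a g)).comp (foulkesHowe bas a b) := by
  apply LinearMap.ext_on (sym_span (k := a)
    (SymmetricPower.tprod ℂ : (Fin b → V) → Sym[ℂ]^b V) (SymmetricPower.span_tprod_eq_top ℂ (Fin b) V))
  rintro _ ⟨v, rfl⟩
  simp [foulkesHowe_tprod, map_sum]

/-- `ell i u` is the function `v ↦ u (v i)`. -/
def evalForm (i : Fin a) : Module.Dual ℂ V →ₗ[ℂ] ((Fin a → V) → ℂ) :=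
  LinearMap.pi fun v => LinearMap.applyₗ (v i)

theorem foulkesHowe_injective (hab : a ≤ b) (hb : (2 * a - 3) * (a - 1) ≤ b) :
    Function.Injective (foulkesHowe bas a b) := by
  rw [← LinearMap.ker_eq_bot, LinearMap.ker_eq_bot']
  intro x hx
  have hb0 : (b.factorial : ℂ) ≠ 0 := Nat.cast_ne_zero.mpr b.factorial_ne_zero
  have ha0 : (a.factorial : ℂ) ≠ 0 := Nat.cast_ne_zero.mpr a.factorial_ne_zero
  -- every pairing with powers of linear forms vanishes
  have hu : ∀ u : Fin a → Module.Dual ℂ V, pairing b u x = 0 := by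
    intro u
    let F : (Fin a → V) → ℂ := fun v => ∑ σ : Equiv.Perm (Fin a), ∏ i, u (σ i) (v i) ^ b
    have hF : F ∈ symSub (evalForm (V := V) (a := a)) b := by
      refine ⟨(∏ i, permMap (evalForm (V := V) (a := a)) i (u i)) ^ b, ?_, ?_⟩
      · apply Submodule.pow_mem_pow
        have : ∀ s : Finset (Fin a), (∏ i ∈ s, permMap (evalForm (V := V) (a := a)) i (u i)) ∈
            ∏ i ∈ s, LinearMap.range (permMap (evalForm (V := V) (a := a)) i) := by
          intro s
          induction s using Finset.induction_on with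
          | empty =>
            rw [Finset.prod_empty, Finset.prod_empty]
            exact Submodule.one_le.mp le_rfl
          | insert j t hj ih =>
            rw [Finset.prod_insert hj, Finset.prod_insert hj]
            exact Submodule.mul_mem_mul (LinearMap.mem_range_self _ _) ih
        exact this _
      · funext v
        simp only [sumMap_apply, F, Finset.sum_apply]
        refine Fintype.sum_equiv (Equiv.inv (Equiv.Perm (Fin a))) _ _ fun σ => ?_
        simp only [Pi.pow_apply, Finset.prod_apply, Finset.prod_pow]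
        congr 1
        refine Fintype.prod_equiv σ _ _ fun i => ?_
        simp [permMap, evalForm]
    have hspan := symSub_le_pow_quadratic (evalForm (V := V) (a := a)) b hab hb hF
    have hφ : ∀ f ∈ Submodule.span ℂ (Set.range fun l : Fin b → Module.Dual ℂ V =>
        ∏ j, ∏ i, evalForm (a := a) i (l j)),
        ∃ φ : Sym[ℂ]^a (Sym[ℂ]^b V) →ₗ[ℂ] ℂ, φ x = 0 ∧ ∀ v : Fin a → V,
          φ (SymmetricPower.tprod ℂ fun i => SymmetricPower.tprod ℂ fun _ => v i) = f v := by
      intro f hf
      induction hf using Submodule.span_induction with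
      | mem f hf =>
        obtain ⟨l, rfl⟩ := hf
        refine ⟨(((b.factorial : ℂ) ^ a) * ((a.factorial : ℂ) ^ b) * b.factorial)⁻¹ •
          (pairing a l).comp (foulkesHowe bas a b), by simp [hx], fun v => ?_⟩
        rw [LinearMap.smul_apply, LinearMap.comp_apply, foulkesHowe_tprod, map_sum]
        simp only [pairing_tprod]
        simp only [Finset.sum_const, Finset.card_univ, Fintype.card_fun, Fintype.card_perm,
          Fintype.card_fin]
        have e : ∀ σ : Equiv.Perm (Fin b),
            ∏ j, ∏ i, l (σ j) (v i) = ∏ j, ∏ i, l j (v i) := fun σ =>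
          Equiv.prod_comp σ (fun j => ∏ i, l j (v i))
        simp only [e, Finset.sum_const, Finset.card_univ, Fintype.card_perm, Fintype.card_fin,
          nsmul_eq_mul, smul_eq_mul, Finset.prod_apply, evalForm, LinearMap.pi_apply,
          LinearMap.applyₗ_apply_apply]
        push_cast
        field_simp
      | zero => exact ⟨0, by simp, fun v => by simp⟩
      | add f f' _ _ hf hf' =>
        obtain ⟨φ, h1, h2⟩ := hf
        obtain ⟨φ', h1', h2'⟩ := hf'
        exact ⟨φ + φ', by simp [h1, h1'], fun v => by simp [h2 v, h2' v]⟩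
      | smul c f _ hf =>
        obtain ⟨φ, h1, h2⟩ := hf
        exact ⟨c • φ, by simp [h1], fun v => by simp [h2 v]⟩
    obtain ⟨φ, hφx, hφv⟩ := hφ F hspan
    have heq : pairing b u = ((b.factorial : ℂ) ^ a) • φ := by
      apply LinearMap.ext_on (sym_span (k := a)
        (fun v : V => SymmetricPower.tprod ℂ (fun _ : Fin b => v)) sym_span_diag)
      rintro _ ⟨v, rfl⟩
      rw [LinearMap.smul_apply, hφv v, pairing_tprod]
      simp [F, Finset.prod_const]
    rw [heq, LinearMap.smul_apply, hφx, smul_zero]
  -- hence the polynomial attached to `x` vanishes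
  have hp : pairing b (blockVar bas a) x = 0 := by
    apply MvPolynomial.funext
    intro t
    let u : Fin a → Module.Dual ℂ V := fun i => bas.constr ℂ fun y => t (i, y)
    have hev : ∀ i w, MvPolynomial.eval t (blockVar bas a i w) = u i w := by
      intro i w
      have : (MvPolynomial.aeval t).toLinearMap.comp (blockVar bas a i) = u i := by
        refine bas.ext fun y => ?_
        simp [u]
      exact LinearMap.congr_fun this w
    have : (MvPolynomial.aeval t).toLinearMap.comp (pairing b (blockVar bas a)) = pairing b u := by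
      apply LinearMap.ext_on (sym_span (k := a)
        (SymmetricPower.tprod ℂ : (Fin b → V) → Sym[ℂ]^b V) (SymmetricPower.span_tprod_eq_top ℂ (Fin b) V))
      rintro _ ⟨v, rfl⟩
      simp [pairing_tprod, map_sum, map_prod, hev]
    rw [map_zero, ← hu u, ← this]
    rfl
  have h := unmono_pairing bas x
  rw [hp, map_zero] at h
  exact (smul_eq_zero.mp h.symm).resolve_left (mul_ne_zero (pow_ne_zero _ hb0) ha0)

end Vale.Agent.P181
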