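import Vale.Agent.P181.Core

/-!
Symmetric powers: universal property, functoriality, the Foulkes-Howe map, pairings.
-/

namespace Vale.Agent.P181

open scoped TensorProduct

section Lift

variable {k : ℕ} {M : Type*} [AddCommGroup M] [Module ℂ M] {P : Type*} [AddCommGroup P]
  [Module ℂ P]

theorem symLift_rel (f : MultilinearMap ℂ (fun _ : Fin k => M) P)
    (hf : ∀ (e : Equiv.Perm (Fin k)) (v : Fin k → M), f (fun i => v (e i)) = f v) :
    addConGen (SymmetricPower.Rel ℂ (Fin k) M) ≤
      AddCon.ker (PiTensorProduct.lift f).toAddMonoidHom :=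
  AddCon.addConGen_le.mpr (by
    rintro x y ⟨e, v⟩
    simp [AddCon.ker_rel, hf e v])

/-- Additive map out of a symmetric power from a symmetric multilinear map. -/
noncomputable def symLiftAdd (f : MultilinearMap ℂ (fun _ : Fin k => M) P)
    (hf : ∀ (e : Equiv.Perm (Fin k)) (v : Fin k → M), f (fun i => v (e i)) = f v) :
    Sym[ℂ]^k M →+ P :=
  AddCon.lift _ (PiTensorProduct.lift f).toAddMonoidHom (symLift_rel f hf)

theorem symLiftAdd_smul (f : MultilinearMap ℂ (fun _ : Fin k => M) P)
    (hf : ∀ (e : Equiv.Perm (Fin k)) (v : Fin k → M), f (fun i => v (e i)) = f v)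
    (c : ℂ) (x : Sym[ℂ]^k M) : symLiftAdd f hf (c • x) = c • symLiftAdd f hf x := by
  obtain ⟨y, rfl⟩ := AddCon.mk'_surjective (c := addConGen (SymmetricPower.Rel ℂ (Fin k) M)) x
  exact (PiTensorProduct.lift f).map_smul c y

/-- Linear map out of a symmetric power from a symmetric multilinear map. -/
noncomputable def symLift (f : MultilinearMap ℂ (fun _ : Fin k => M) P)
    (hf : ∀ (e : Equiv.Perm (Fin k)) (v : Fin k → M), f (fun i => v (e i)) = f v) :
    Sym[ℂ]^k M →ₗ[ℂ] P where
  toFun := symLiftAdd f hf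
  map_add' := map_add (symLiftAdd f hf)
  map_smul' := symLiftAdd_smul f hf

@[simp] theorem symLift_tprod (f : MultilinearMap ℂ (fun _ : Fin k => M) P)
    (hf : ∀ (e : Equiv.Perm (Fin k)) (v : Fin k → M), f (fun i => v (e i)) = f v)
    (v : Fin k → M) : symLift f hf (SymmetricPower.tprod ℂ v) = f v :=
  PiTensorProduct.lift.tprod v

theorem sym_ext {φ ψ : Sym[ℂ]^k M →ₗ[ℂ] P}
    (h : ∀ v, φ (SymmetricPower.tprod ℂ v) = ψ (SymmetricPower.tprod ℂ v)) : φ = ψ := by
  apply LinearMap.ext_on (SymmetricPower.span_tprod_eq_top (R := ℂ) (ι := Fin k) (M := M))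
  rintro _ ⟨v, rfl⟩
  exact h v

/-- If every coordinate is in the span of `p`, the value of a multilinear map is in the span of
the values on `p`. -/
theorem multilinear_span {κ : Type*} (f : MultilinearMap ℂ (fun _ : Fin k => M) P) (p : κ → M)
    (S : Submodule ℂ P) (h : ∀ g : Fin k → κ, f (fun i => p (g i)) ∈ S) (x : Fin k → M)
    (hx : ∀ i, x i ∈ Submodule.span ℂ (Set.range p)) : f x ∈ S := by
  classical
  choose c hc using fun i => Finsupp.mem_span_range_iff_exists_finsupp.mp (hx i)
  have e : x = fun i => ∑ v ∈ (c i).support, c i v • p v := by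
    funext i; rw [← hc i]; rfl
  rw [e, MultilinearMap.map_sum_finset]
  refine Submodule.sum_mem _ fun g _ => ?_
  rw [MultilinearMap.map_smul_univ]
  exact Submodule.smul_mem _ _ (h g)

/-- The symmetric power is spanned by symmetric products from any spanning family. -/
theorem sym_span {κ : Type*} (p : κ → M) (hp : Submodule.span ℂ (Set.range p) = ⊤) :
    Submodule.span ℂ (Set.range fun g : Fin k → κ =>
      SymmetricPower.tprod ℂ (fun i => p (g i))) = ⊤ := by
  rw [eq_top_iff, ← SymmetricPower.span_tprod_eq_top (R := ℂ), Submodule.span_le]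
  rintro _ ⟨x, rfl⟩
  exact multilinear_span (SymmetricPower.tprod ℂ) p
    (Submodule.span ℂ (Set.range fun g : Fin k → κ =>
      SymmetricPower.tprod ℂ (fun i => p (g i))))
    (fun g => Submodule.subset_span ⟨g, rfl⟩) x (fun i => by rw [hp]; trivial)

/-- Powers span the symmetric power. -/
theorem sym_span_diag :
    Submodule.span ℂ (Set.range fun v : M =>
      SymmetricPower.tprod ℂ (fun _ : Fin k => v)) = ⊤ := by
  classical
  rw [eq_top_iff, ← SymmetricPower.span_tprod_eq_top (R := ℂ), Submodule.span_le]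
  rintro _ ⟨x, rfl⟩
  have h := inclusion_exclusion (fun g : Fin k → Fin k =>
    SymmetricPower.tprod ℂ (fun i => x (g i)))
  simp only [SymmetricPower.tprod_equiv, Finset.sum_const] at h
  rw [← Nat.cast_smul_eq_nsmul ℂ] at h
  set S := Submodule.span ℂ (Set.range fun v : M =>
    SymmetricPower.tprod ℂ (fun _ : Fin k => v))
  have hmem : ((Finset.univ : Finset (Equiv.Perm (Fin k))).card : ℂ) •
      SymmetricPower.tprod ℂ x ∈ S := by
    rw [← h]
    refine Submodule.sum_mem _ fun T _ => zsmul_mem ?_ _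
    rw [← MultilinearMap.map_sum_finset]
    exact Submodule.subset_span ⟨∑ j ∈ T, x j, rfl⟩
  have hne : ((Finset.univ : Finset (Equiv.Perm (Fin k))).card : ℂ) ≠ 0 :=
    Nat.cast_ne_zero.mpr (Finset.card_pos.mpr Finset.univ_nonempty).ne'
  have := S.smul_mem ((Finset.univ : Finset (Equiv.Perm (Fin k))).card : ℂ)⁻¹ hmem
  rwa [smul_smul, inv_mul_cancel₀ hne, one_smul] at this

end Lift

section Maps

variable {a b : ℕ} {V V' : Type*} [AddCommGroup V] [Module ℂ V] [AddCommGroup V'] [Module ℂ V']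

theorem symMap_symmetric (k : ℕ) (f : V →ₗ[ℂ] V') (e : Equiv.Perm (Fin k)) (v : Fin k → V) :
    (SymmetricPower.tprod ℂ).compLinearMap (fun _ => f) (fun i => v (e i)) =
      (SymmetricPower.tprod ℂ).compLinearMap (fun _ => f) v := by
  simp only [MultilinearMap.compLinearMap_apply]
  exact SymmetricPower.tprod_equiv e (fun i => f (v i))

/-- Functoriality of the symmetric power. -/
noncomputable def symMap (k : ℕ) (f : V →ₗ[ℂ] V') : Sym[ℂ]^k V →ₗ[ℂ] Sym[ℂ]^k V' :=
  symLift ((SymmetricPower.tprod ℂ).compLinearMap fun _ => f) (symMap_symmetric k f)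

@[simp] theorem symMap_tprod (k : ℕ) (f : V →ₗ[ℂ] V') (v : Fin k → V) :
    symMap k f (SymmetricPower.tprod ℂ v) = SymmetricPower.tprod ℂ fun i => f (v i) := by
  simp [symMap]

variable {R : Type*} [CommRing R] [Algebra ℂ R]

/-- Product of values of linear maps, symmetrised, on a symmetric power. -/
noncomputable def symPair {k : ℕ} (u : Fin k → (V →ₗ[ℂ] R)) : Sym[ℂ]^k V →ₗ[ℂ] R :=
  symLift (∑ σ : Equiv.Perm (Fin k),
      (MultilinearMap.mkPiAlgebra ℂ (Fin k) R).compLinearMap fun i => u (σ i))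
    (fun e v => by
      simp only [sum_apply, MultilinearMap.compLinearMap_apply,
        MultilinearMap.mkPiAlgebra_apply]
      refine Fintype.sum_equiv (Equiv.mulRight e⁻¹) _ _ fun σ => ?_
      refine Fintype.prod_equiv e _ _ fun i => ?_
      simp)

@[simp] theorem symPair_tprod {k : ℕ} (u : Fin k → (V →ₗ[ℂ] R)) (v : Fin k → V) :
    symPair u (SymmetricPower.tprod ℂ v) = ∑ σ : Equiv.Perm (Fin k), ∏ i, u (σ i) (v i) := by
  simp [symPair]

/-- Pairing of `Sym^a (Sym^b V)` with `a` linear forms, each to the power `b`. -/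
noncomputable def pairing (b : ℕ) (u : Fin a → (V →ₗ[ℂ] R)) :
    Sym[ℂ]^a (Sym[ℂ]^b V) →ₗ[ℂ] R :=
  symPair fun i => symPair (fun _ : Fin b => u i)

theorem pairing_tprod (u : Fin a → (V →ₗ[ℂ] R)) (v : Fin a → Fin b → V) :
    pairing b u (SymmetricPower.tprod ℂ fun i => SymmetricPower.tprod ℂ (v i)) =
      ((b.factorial : R) ^ a) *
        ∑ σ : Equiv.Perm (Fin a), ∏ i, ∏ j, u (σ i) (v i j) := by
  simp [pairing, Finset.prod_mul_distrib, Finset.mul_sum, Fintype.card_perm]

end Maps

end Vale.Agent.P181
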